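import Vale.Agent.P088.R2.H31.EP.PackL
import Vale.Agent.P088.R2.H313.MuT

/-!
# P088, stage 3: the correction `d.μc q` of the level for the package `Pk`
-/

open Set Filter Topology MeasureTheory
open scoped ContDiff

noncomputable section

namespace Vale.Agent.P088.R2.H313.EP

open Vale.Agent.P088.LR Vale.Agent.P088.HY
open Vale.Agent.P088.R2.H31.EP
open Vale.Agent.P088.R2.H313.Mu

variable {n : ℕ}

theorem muC0 : ∀ j, 0 ≤ muC j := H313.Tp.exists_all.choose_spec.1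

/-- The constants of `μc` above `l₀ + R / 2`. -/
def muD : ℕ → ℝ := (ex_muT muC muC0).choose

theorem muD0 : ∀ j, 0 ≤ muD j := (ex_muT muC muC0).choose_spec.1

/-- The constants of `μc`. -/
def muG (j : ℕ) : ℝ := 6 + muC (j - 1) + muD j

theorem muG0 (j : ℕ) : 0 < muG j := by
  have := muC0 (j - 1)
  have := muD0 j
  unfold muG
  linarith

/-- The properties of the correction `d.μc q`. -/
structure MuOk (q : Cst) (d : Pk n) : Prop where
  l0 : 0 ≤ d.l₀ q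
  szR : sz q.M₀ + 1 ≤ q.R / 2
  R1 : 100 ≤ q.R
  M1 : Real.exp 1 ≤ q.M₀
  b : 0 < b1 1 q.M₀
  isμ : IsMu q.Cs 1 muC q.M₀ d.μ
  sm : ContDiff ℝ ∞ (d.μc q)
  np : ∀ s, d.μc q s ≤ 0
  ge : ∀ s, d.μ s ≤ d.μc q s
  b8 : ∀ s, |d.μc q s| ≤ 1 / 8
  z0 : ∀ s, s ≤ sw q.Cs q.M₀ → d.μc q s = 0
  ze : ∀ (j : ℕ) s, s ≤ sw q.Cs q.M₀ → iteratedDeriv j (d.μc q) s = 0
  lo : ∀ (j : ℕ) s, s ≤ d.l₀ q + q.R / 2 → iteratedDeriv j (d.μc q) s = iteratedDeriv j d.μ s
  hi : ∀ (j : ℕ) s, d.l₀ q + q.R ≤ s → iteratedDeriv j (d.μc q) s = 0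
  md : ∀ (j : ℕ) s, d.l₀ q + q.R / 2 ≤ s →
    |iteratedDeriv j (d.μc q) s| ≤ muD j * (1 / q.R) ^ j * b1 1 q.M₀
  al : ∀ (j : ℕ) s, |iteratedDeriv j (d.μc q) s| ≤ muG j * b1 1 q.M₀
  cv : ∀ s, sw q.Cs q.M₀ + 1 ≤ s → s ≤ d.l₀ q + q.R / 2 → 0 ≤ deriv (deriv (d.μc q)) s
  cn : ∀ s, sw q.Cs q.M₀ + 1 ≤ s →
    -(muD 2 * (1 / q.R) ^ 2 * b1 1 q.M₀) ≤ deriv (deriv (d.μc q)) s
  mo : Monotone fun s => s + d.μc q s

theorem l0_nonneg {q : Cst} (h1 : 1 ≤ q.Ck) (h2 : 1 ≤ q.R) {d : Pk n} (h : PkOk q d) :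
    0 ≤ d.l₀ q := by
  have hR : 0 < q.R := by linarith
  have h3 : q.R ≤ d.kap := by
    calc q.R = q.R ^ (1 : ℝ) := (Real.rpow_one _).symm
      _ ≤ q.R ^ q.Ck := Real.rpow_le_rpow_of_exponent_le h2 h1
      _ ≤ d.kap := h.kC
  have h4 : 0 ≤ Real.log (d.kap / q.R) := Real.log_nonneg (by rwa [le_div_iff₀ hR, one_mul])
  have h5 : q.R * d.Gs ≤ 0 := mul_nonpos_of_nonneg_of_nonpos hR.le h.G0
  rw [Pk.l₀]
  linarith

/-- **The properties of `μc`.** -/
theorem EvC.muOk : EvC fun q => ∀ d : Pk n, PkOk q d → MuOk q d := by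
  have e1 : EvC fun q => Real.exp 1 ≤ q.M₀ :=
    EvC.at_M₀ (fun _ t => Real.exp 1 ≤ t) fun _ => eventually_ge_atTop _
  have e2 : EvC fun q => muG 1 * b1 1 q.M₀ ≤ 1 := by
    refine EvC.at_M₀ (fun _ t => muG 1 * b1 1 t ≤ 1) fun _ => ?_
    obtain ⟨Ms, hMs⟩ := b1_small 1 (η := 1 / muG 1) (one_div_pos.2 (muG0 1))
    filter_upwards [eventually_ge_atTop Ms] with t ht
    have := hMs t ht
    rwa [le_div_iff₀ (muG0 1), mul_comm] at this
  have e3 : EvC fun q => 100 ≤ q.R ∧ sz q.M₀ + 1 ≤ q.R / 2 ∧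
      (0 < b1 1 q.M₀ → (1 : ℝ) * q.R ^ (-(1 / 2) : ℝ) ≤ b1 1 q.M₀) := by
    refine EvC.at_R (fun q t => 100 ≤ t ∧ sz q.M₀ + 1 ≤ t / 2 ∧
      (0 < b1 1 q.M₀ → (1 : ℝ) * t ^ (-(1 / 2) : ℝ) ≤ b1 1 q.M₀)) fun q => ?_
    have h3 : ∀ᶠ t : ℝ in atTop, 0 < b1 1 q.M₀ → (1 : ℝ) * t ^ (-(1 / 2) : ℝ) ≤ b1 1 q.M₀ := by
      by_cases hb : 0 < b1 1 q.M₀
      · have := (tendsto_rpow_neg_atTop (by norm_num : (0 : ℝ) < 1 / 2)).eventually_le_const hb
        filter_upwards [this] with t ht _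
        rwa [one_mul]
      · exact Eventually.of_forall fun _ h => absurd h hb
    filter_upwards [eventually_ge_atTop 100, eventually_ge_atTop (2 * (sz q.M₀ + 1)), h3] with
      t a b c
    exact ⟨a, by linarith, c⟩
  refine (((EvC.pos.and EvC.good).and (e1.and e2)).and e3).mono ?_
  rintro q ⟨⟨⟨⟨-, -, -, -, -, -, hCk, -⟩, -, hph⟩, hM, hG⟩, hR, hz, hb⟩ d hd
  have hl : 0 ≤ d.l₀ q := l0_nonneg hCk (by linarith) hd
  have hR0 : 0 < q.R := by linarith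
  have hb0 : 0 < b1 1 q.M₀ := b1_pos one_pos hM
  have hM1 : 1 ≤ q.M₀ := le_trans (Real.one_le_exp (by norm_num)) hM
  have hmu := hd.ph.isμ
  have hsm := Pk.μc_smooth d q hmu.sm
  have hcut : ∀ s, 0 ≤ 1 - Real.smoothTransition (2 * ((s - d.l₀ q) / q.R) - 1) ∧
      1 - Real.smoothTransition (2 * ((s - d.l₀ q) / q.R) - 1) ≤ 1 := fun s =>
    ⟨sub_nonneg.2 (Real.smoothTransition.le_one _), by
      linarith [Real.smoothTransition.nonneg (2 * ((s - d.l₀ q) / q.R) - 1)]⟩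
  have hz0 : ∀ s, s ≤ sw q.Cs q.M₀ → d.μc q s = 0 := fun s hs => by
    rw [Pk.μc, hmu.ze s hs, zero_mul]
  have hlo : ∀ (j : ℕ) s, s ≤ d.l₀ q + q.R / 2 →
      iteratedDeriv j (d.μc q) s = iteratedDeriv j d.μ s := fun j s hs =>
    iter_Iic hsm hmu.sm (c := d.l₀ q + q.R / 2) (fun t ht => Pk.μc_eq d q hR0 ht) j hs
  have hmd : ∀ (j : ℕ) s, d.l₀ q + q.R / 2 ≤ s →
      |iteratedDeriv j (d.μc q) s| ≤ muD j * (1 / q.R) ^ j * b1 1 q.M₀ := fun j s hs =>
    (ex_muT muC muC0).choose_spec.2 one_pos hM1 hmu (d.l₀ q) q.R s hl (by linarith) hz (hb hb0)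
      hs j
  have hal : ∀ (j : ℕ) s, |iteratedDeriv j (d.μc q) s| ≤ muG j * b1 1 q.M₀ := by
    intro j s
    have c0 := muC0 (j - 1)
    have d0 := muD0 j
    rcases le_total s (d.l₀ q + q.R / 2) with hs | hs
    · rw [hlo j s hs]
      rcases j with _ | j
      · rw [iteratedDeriv_zero]
        have h1 := hmu.bd s
        have h2 : |d.μ s| ≤ 6 * b1 1 q.M₀ := by
          rw [b1]
          linarith
        unfold muG
        nlinarith [mul_nonneg c0 hb0.le, mul_nonneg d0 hb0.le]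
      · have h1 := (hmu.bj j s).trans (mul_le_mul_of_nonneg_left (b0_le_b1 one_pos hM) (muC0 j))
        unfold muG
        rw [Nat.add_sub_cancel] at c0 ⊢
        nlinarith [mul_nonneg c0 hb0.le, mul_nonneg d0 hb0.le]
    · have h1 := hmd j s hs
      have h2 : (1 / q.R) ^ j ≤ 1 := pow_le_one₀ (by positivity)
        ((div_le_one hR0).2 (by linarith))
      have h3 : muD j * (1 / q.R) ^ j ≤ muD j := mul_le_of_le_one_right d0 h2
      have h4 := mul_le_mul_of_nonneg_right h3 hb0.le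
      unfold muG
      nlinarith [mul_nonneg c0 hb0.le, mul_nonneg d0 hb0.le]
  have hnp : ∀ s, d.μc q s ≤ 0 := fun s =>
    mul_nonpos_of_nonpos_of_nonneg (hmu.nonpos s) (hcut s).1
  have hcv : ∀ s, sw q.Cs q.M₀ + 1 ≤ s → s ≤ d.l₀ q + q.R / 2 →
      0 ≤ deriv (deriv (d.μc q)) s := by
    intro s hs hs'
    have := hlo 2 s hs'
    rw [iter_two, iter_two] at this
    rw [this]
    exact hmu.cv s hs
  have hcn0 : 0 ≤ muD 2 * (1 / q.R) ^ 2 * b1 1 q.M₀ := by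
    have := muD0 2
    positivity
  refine ⟨hl, hz, hR, hM, hb0, hmu, hsm, hnp, fun s => ?_, fun s => ?_, hz0, fun j s hs => ?_,
    hlo, fun j s hs => ?_, hmd, hal, hcv, fun s hs => ?_, ?_⟩
  · have h1 := hmu.nonpos s
    show d.μ s ≤ d.μ s * (1 - Real.smoothTransition (2 * ((s - d.l₀ q) / q.R) - 1))
    nlinarith [(hcut s).2]
  · exact (Pk.μc_abs d q s).trans (hd.ph.μb s)
  · rw [iter_Iic hsm contDiff_const (g := fun _ => (0 : ℝ)) hz0 j hs, iter_zero]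
  · rw [iter_Ici hsm contDiff_const (g := fun _ => (0 : ℝ)) (c := d.l₀ q + q.R)
      (fun t ht => Pk.μc_zero d q hR0 ht) j hs, iter_zero]
  · rcases le_total s (d.l₀ q + q.R / 2) with h | h
    · linarith [hcv s hs h]
    · have := (abs_le.1 (hmd 2 s h)).1
      rwa [iter_two] at this
  · have hd' : Differentiable ℝ (d.μc q) := hsm.differentiable (by simp)
    refine monotone_of_deriv_nonneg (differentiable_id.add hd') fun s => ?_
    have : deriv (fun s => s + d.μc q s) s = 1 + deriv (d.μc q) s :=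
      ((hasDerivAt_id s).add (hd' s).hasDerivAt).deriv
    rw [this]
    have := (abs_le.1 (hal 1 s)).1
    rw [iteratedDeriv_one] at this
    linarith

/-- `N ≤ (1 + CT) Cb M₀` for `u ≤ uth`. -/
theorem N_le {q : Cst} {d : Pk n} (h : PkOk q d) (hg : PhGood q.nm q.ν₁ q.aC q.ph) {u : ℝ}
    (hu : u ≤ d.uth q) : deriv d.Φ u ≤ (1 + q.ph.CT) * (q.ph.Cb * q.M₀) := by
  have h1 := h.top.c1 u hu
  have h2 := h.ph.isΦ.n2 u
  have h3 : Real.exp (u - d.uth q) ≤ 1 := Real.exp_le_one_iff.2 (by linarith)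
  have h4 : 0 < q.ph.Cb * q.M₀ ∨ q.M₀ ≤ 0 := by
    rcases lt_or_ge 0 q.M₀ with h | h
    · exact Or.inl (mul_pos hg.Cb0 h)
    · exact Or.inr h
  have h5 : 0 ≤ 1 + q.ph.CT * Real.exp (u - d.uth q) := by
    have := hg.CT0
    positivity
  have h6 : 0 < deriv d.Φ₁ u := by
    have := h.ph.isΦ.k0 u
    have h8 := h.ph.isΦ.k1 u
    nlinarith
  calc deriv d.Φ u ≤ (1 + q.ph.CT * Real.exp (u - d.uth q)) * deriv d.Φ₁ u := h1
    _ ≤ (1 + q.ph.CT * 1) * deriv d.Φ₁ u :=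
      mul_le_mul_of_nonneg_right (by
        have := mul_le_mul_of_nonneg_left h3 hg.CT0.le
        linarith) h6.le
    _ ≤ (1 + q.ph.CT * 1) * (q.ph.Cb * q.M₀) :=
      mul_le_mul_of_nonneg_left h2 (by have := hg.CT0; positivity)
    _ = (1 + q.ph.CT) * (q.ph.Cb * q.M₀) := by ring

/-- `e^(2 s_w) = Cs M₀`. -/
theorem exp_sw {Cs M0 : ℝ} (h : 0 < Cs * M0) : Real.exp (2 * sw Cs M0) = Cs * M0 := by
  rw [sw]
  have : 2 * (1 / 2 * Real.log (Cs * M0)) = Real.log (Cs * M0) := by ring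
  rw [this, Real.exp_log h]

/-- **`μ = 0` where `E ≤ A N`** (both passes): `A` depends on the constants before `Cs`. -/
theorem EvC.mu0 (A : Cst → ℝ) (hA : NB_Cs A) : EvC fun q => ∀ d : Pk n, PkOk q d →
    ∀ s u : ℝ, |u - 2 * s| ≤ 1 → Real.exp u ≤ A q * deriv d.Φ u →
      (∀ j : ℕ, iteratedDeriv j (d.μc q) s = 0) ∧ (∀ᶠ t in 𝓝 s, d.μc q t = 0) ∧
        ∀ t, |t - s| ≤ 1 → d.μc q t = 0 := by
  have e1 : EvC fun q => Real.exp 3 * (|A q| * ((1 + q.ph.CT) * q.ph.Cb)) < q.Cs := by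
    have := EvC.at_Cs (fun q t => Real.exp 3 * (|A q| * ((1 + q.ph.CT) * q.ph.Cb)) < t)
      fun q => eventually_gt_atTop _
    refine this.mono fun q hq => ?_
    have h1 : A q.b_Cs = A q := hA q
    rw [h1] at hq
    exact hq
  refine (((EvC.pos.and EvC.good).and e1).and (EvC.muOk (n := n))).mono ?_
  rintro q ⟨⟨⟨⟨-, ⟨-, -, -, -, hCs, -⟩, hM, -⟩, ⟨hg, -⟩, -⟩, hq⟩, hmu⟩ d hd s u hus hE
  have hk := hmu d hd
  have hR0 : 0 < q.R := by linarith [hk.R1]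
  obtain ⟨a1, a2⟩ := abs_le.1 hus
  rcases le_total u (d.uth q) with hu | hu
  · have hCM : 0 < q.Cs * q.M₀ := mul_pos (by linarith) (by linarith)
    have hN := N_le hd hg hu
    have hN0 : 0 < deriv d.Φ u := by
      have := hd.top.l1 u
      linarith [hd.ph.isΦ.n1 u]
    have h1 : Real.exp u ≤ |A q| * ((1 + q.ph.CT) * (q.ph.Cb * q.M₀)) :=
      hE.trans ((mul_le_mul_of_nonneg_right (le_abs_self _) hN0.le).trans
        (mul_le_mul_of_nonneg_left hN (abs_nonneg _)))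
    have h2 : Real.exp (2 * s + 2) < q.Cs * q.M₀ := by
      calc Real.exp (2 * s + 2) ≤ Real.exp (u + 3) := Real.exp_le_exp.2 (by linarith)
        _ = Real.exp 3 * Real.exp u := by rw [Real.exp_add]; ring
        _ ≤ Real.exp 3 * (|A q| * ((1 + q.ph.CT) * (q.ph.Cb * q.M₀))) :=
          mul_le_mul_of_nonneg_left h1 (Real.exp_pos _).le
        _ = (Real.exp 3 * (|A q| * ((1 + q.ph.CT) * q.ph.Cb))) * q.M₀ := by ring
        _ < q.Cs * q.M₀ := mul_lt_mul_of_pos_right hq (by linarith)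
    rw [← exp_sw hCM, Real.exp_lt_exp] at h2
    have hs : s + 1 < sw q.Cs q.M₀ := by linarith
    refine ⟨fun j => hk.ze j s (by linarith), ?_, fun t ht => hk.z0 t ?_⟩
    · filter_upwards [gt_mem_nhds (show s < sw q.Cs q.M₀ by linarith)] with t ht
      exact hk.z0 t ht.le
    · have := (abs_le.1 ht).2
      linarith
  · have h1 : d.uth q = 2 * d.l₀ q + 22 / 10 * q.R := rfl
    have hs : d.l₀ q + q.R + 1 < s := by
      have := hk.R1
      linarith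
    refine ⟨fun j => hk.hi j s (by linarith), ?_, fun t ht => Pk.μc_zero d q hR0 ?_⟩
    · filter_upwards [lt_mem_nhds (show d.l₀ q + q.R < s by linarith)] with t ht
      exact Pk.μc_zero d q hR0 ht.le
    · have := (abs_le.1 ht).1
      linarith

/-- **The layer where `μ` begins**: `b₁ (N + A E) ≤ θ K`; `A`, `θ` depend on the constants before
`M₀`. -/
theorem EvC.muL (A th : Cst → ℝ) (hA : NB_M₀ A) (hth : NB_M₀ th) : EvC fun q =>
    ∀ d : Pk n, PkOk q d → 0 < th q → ∀ s u : ℝ, |u - 2 * s| ≤ 1 → sw q.Cs q.M₀ ≤ s →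
      s ≤ sw q.Cs q.M₀ + 1 →
        b1 1 q.M₀ * (deriv d.Φ u + A q * Real.exp u) ≤ th q * deriv (deriv d.Φ) u := by
  have e1 : EvC fun q => 0 < th q → 0 < q.cl → 0 < q.ph.Cb → 0 < q.ph.CT →
      b1 1 q.M₀ * ((1 + q.ph.CT) * q.ph.Cb * Real.exp 1 + |A q|) ≤ th q * q.cl := by
    have := EvC.at_M₀ (fun q t => 0 < th q → 0 < q.cl → 0 < q.ph.Cb → 0 < q.ph.CT →
      b1 1 t * ((1 + q.ph.CT) * q.ph.Cb * Real.exp 1 + |A q|) ≤ th q * q.cl) fun q => ?_
    · refine this.mono fun q hq => ?_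
      have h1 : A q.b_M₀ = A q := hA q
      have h2 : th q.b_M₀ = th q := hth q
      rw [h1, h2] at hq
      exact hq
    · by_cases h : 0 < th q ∧ 0 < q.cl ∧ 0 < q.ph.Cb ∧ 0 < q.ph.CT
      · obtain ⟨h1, h2, h3, h4⟩ := h
        have hp : 0 < (1 + q.ph.CT) * q.ph.Cb * Real.exp 1 + |A q| := by positivity
        obtain ⟨Ms, hMs⟩ := b1_small 1 (η := th q * q.cl /
          ((1 + q.ph.CT) * q.ph.Cb * Real.exp 1 + |A q|)) (by positivity)
        filter_upwards [eventually_ge_atTop Ms] with t ht _ _ _ _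
        have := hMs t ht
        rwa [le_div_iff₀ hp] at this
      · refine Eventually.of_forall fun t h1 h2 h3 h4 => absurd ⟨h1, h2, h3, h4⟩ h
  have e2 : EvC fun q => Real.log (q.Cs * q.M₀) + 3 ≤ 22 / 10 * q.R :=
    EvC.at_R (fun q t => Real.log (q.Cs * q.M₀) + 3 ≤ 22 / 10 * t) fun q => by
      filter_upwards [eventually_ge_atTop (Real.log (q.Cs * q.M₀) + 3),
        eventually_ge_atTop 0] with t a b
      linarith
  refine (((EvC.pos.and EvC.good).and (e1.and e2)).and (EvC.muOk (n := n))).mono ?_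
  rintro q ⟨⟨⟨⟨-, ⟨-, -, -, -, hCs, -⟩, hM, -⟩, ⟨hg, -, -, hmg, -⟩, -⟩, hq, hq2⟩, hmu⟩ d hd hth0 s u
    hus hs hs'
  have hk := hmu d hd
  have hcl : 0 < q.cl := hmg.cl0
  have hR0 : 0 < q.R := by linarith [hk.R1]
  obtain ⟨a1, a2⟩ := abs_le.1 hus
  have hM0 : 0 < q.M₀ := by linarith
  have hCM : 0 < q.Cs * q.M₀ := mul_pos (by linarith) hM0
  have hsw : 2 * sw q.Cs q.M₀ = Real.log (q.Cs * q.M₀) := by rw [sw]; ring
  have h1 : d.uth q = 2 * d.l₀ q + 22 / 10 * q.R := rfl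
  have hu : u ≤ d.uth q := by
    have := hk.l0
    linarith
  have hN := N_le hd hg hu
  have hN1 : q.M₀ ≤ deriv d.Φ₁ u := hd.ph.isΦ.n1 u
  have hNN : deriv d.Φ₁ u ≤ deriv d.Φ u := hd.top.l1 u
  -- `M₀ ≤ e E / Cs`
  have hE1 : q.M₀ ≤ Real.exp 1 * Real.exp u := by
    have h2 : q.Cs * q.M₀ ≤ Real.exp 1 * Real.exp u := by
      rw [← exp_sw hCM, ← Real.exp_add]
      exact Real.exp_le_exp.2 (by linarith)
    nlinarith
  have hE2 : Real.exp u ≤ 8 * Real.exp 1 ^ 2 * q.Cs * deriv d.Φ₁ u := by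
    have h2 : Real.exp u ≤ Real.exp 3 * (q.Cs * q.M₀) := by
      rw [← exp_sw hCM, ← Real.exp_add]
      exact Real.exp_le_exp.2 (by linarith)
    have h3 : Real.exp 3 ≤ 8 * Real.exp 1 ^ 2 := by
      have e : Real.exp 3 = Real.exp 1 * Real.exp 1 ^ 2 := by
        rw [← Real.exp_nat_mul, ← Real.exp_add]
        norm_num
      rw [e]
      have := Real.exp_one_lt_d9
      have h4 : 0 < Real.exp 1 ^ 2 := by positivity
      nlinarith
    calc Real.exp u ≤ Real.exp 3 * (q.Cs * q.M₀) := h2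
      _ ≤ (8 * Real.exp 1 ^ 2) * (q.Cs * deriv d.Φ₁ u) :=
        mul_le_mul h3 (mul_le_mul_of_nonneg_left hN1 (by linarith)) hCM.le (by positivity)
      _ = _ := by ring
  have hK1 : q.cl * Real.exp u ≤ deriv (deriv d.Φ₁) u := hd.ph.low u hE2
  have hK2 : deriv (deriv d.Φ₁) u ≤ deriv (deriv d.Φ) u := by
    have h2 := hd.top.kr u
    have h3 : 0 < deriv d.Φ₁ u := by linarith
    have h4 := hd.ph.isΦ.k0 u
    have h5 : deriv (deriv d.Φ₁) u ≤
        deriv (deriv d.Φ₁) u / deriv d.Φ₁ u * deriv d.Φ u := by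
      rw [div_mul_eq_mul_div, le_div_iff₀ h3]
      exact mul_le_mul_of_nonneg_left hNN h4.le
    exact h5.trans h2
  have hEp := Real.exp_pos u
  have hC := hg.CT0
  have hCb := hg.Cb0
  have h5 : deriv d.Φ u + A q * Real.exp u ≤
      ((1 + q.ph.CT) * q.ph.Cb * Real.exp 1 + |A q|) * Real.exp u := by
    have h6 : A q * Real.exp u ≤ |A q| * Real.exp u :=
      mul_le_mul_of_nonneg_right (le_abs_self _) hEp.le
    have h7 : (1 + q.ph.CT) * (q.ph.Cb * q.M₀) ≤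
        (1 + q.ph.CT) * q.ph.Cb * Real.exp 1 * Real.exp u := by
      calc (1 + q.ph.CT) * (q.ph.Cb * q.M₀) = ((1 + q.ph.CT) * q.ph.Cb) * q.M₀ := by ring
        _ ≤ ((1 + q.ph.CT) * q.ph.Cb) * (Real.exp 1 * Real.exp u) :=
          mul_le_mul_of_nonneg_left hE1 (by positivity)
        _ = _ := by ring
    linarith
  calc b1 1 q.M₀ * (deriv d.Φ u + A q * Real.exp u)
      ≤ b1 1 q.M₀ * (((1 + q.ph.CT) * q.ph.Cb * Real.exp 1 + |A q|) * Real.exp u) :=
        mul_le_mul_of_nonneg_left h5 hk.b.le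
    _ = (b1 1 q.M₀ * ((1 + q.ph.CT) * q.ph.Cb * Real.exp 1 + |A q|)) * Real.exp u := by ring
    _ ≤ (th q * q.cl) * Real.exp u :=
        mul_le_mul_of_nonneg_right (hq hth0 hcl hCb hC) hEp.le
    _ = th q * (q.cl * Real.exp u) := by ring
    _ ≤ th q * deriv (deriv d.Φ) u := mul_le_mul_of_nonneg_left (hK1.trans hK2) hth0.le

/-- **The negative part of `μ''`** below `l₀ + R / 2`. -/
theorem EvC.muN (A th : Cst → ℝ) (hA : NB_M₀ A) (hth : NB_M₀ th) : EvC fun q =>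
    ∀ d : Pk n, PkOk q d → 0 ≤ A q → 0 < th q → ∀ s u : ℝ, |u - 2 * s| ≤ 1 →
      s ≤ d.l₀ q + q.R / 2 → -deriv (deriv (d.μc q)) s * (deriv d.Φ u + A q * Real.exp u) ≤
        th q * deriv (deriv d.Φ) u := by
  have h := EvC.muL (n := n) A (fun q => th q / muG 2) hA fun q => by
    show th q.b_M₀ / muG 2 = th q / muG 2
    have : th q.b_M₀ = th q := hth q
    rw [this]
  refine (h.and (EvC.muOk (n := n))).mono ?_
  rintro q ⟨h1, hmu⟩ d hd hA0 hth0 s u hus hs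
  have hk := hmu d hd
  have hK := hd.top.k0 u
  have hg := muG0 2
  have hN : 0 ≤ deriv d.Φ u := by
    have h2 := hd.top.l1 u
    have h3 := hd.ph.isΦ.n1 u
    have h4 := hk.M1
    have := Real.exp_pos 1
    linarith
  have hS : 0 ≤ deriv d.Φ u + A q * Real.exp u :=
    add_nonneg hN (mul_nonneg hA0 (Real.exp_pos _).le)
  rcases le_total s (sw q.Cs q.M₀) with a | a
  · have h2 := hk.ze 2 s a
    rw [iter_two] at h2
    rw [h2, neg_zero, zero_mul]
    positivity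
  · rcases le_total s (sw q.Cs q.M₀ + 1) with b | b
    · have h2 := h1 d hd (by positivity) s u hus a b
      have h3 := (abs_le.1 (hk.al 2 s)).1
      rw [iter_two] at h3
      calc -deriv (deriv (d.μc q)) s * (deriv d.Φ u + A q * Real.exp u)
          ≤ (muG 2 * b1 1 q.M₀) * (deriv d.Φ u + A q * Real.exp u) :=
            mul_le_mul_of_nonneg_right (by linarith) hS
        _ = muG 2 * (b1 1 q.M₀ * (deriv d.Φ u + A q * Real.exp u)) := by ring
        _ ≤ muG 2 * (th q / muG 2 * deriv (deriv d.Φ) u) :=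
            mul_le_mul_of_nonneg_left h2 hg.le
        _ = th q * deriv (deriv d.Φ) u := by
          field_simp
    · have h2 := hk.cv s b hs
      have h3 : -deriv (deriv (d.μc q)) s * (deriv d.Φ u + A q * Real.exp u) ≤ 0 :=
        mul_nonpos_of_nonpos_of_nonneg (by linarith) hS
      have : 0 ≤ th q * deriv (deriv d.Φ) u := by positivity
      linarith

end Vale.Agent.P088.R2.H313.EP
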